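import Mathlib

/-!
# P127: Lipschitz choices of segments

If the segment in direction `e` starts at `a e` and `a` is Lipschitz on a set of directions of
positive surface measure, then for one of `n + 1` parameters `s` the map
`x ↦ a (x / ‖x‖) + s • x` of a cone into the union of the segments has nonzero Jacobian on a set
of positive measure, since a linear map has at most `n` eigenvalues.
-/

open MeasureTheory Module Set Metric
open scoped NNReal ENNReal

namespace Vale.Agent.P127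

variable {E : Type*} [NormedAddCommGroup E] [NormedSpace ℝ E] [FiniteDimensional ℝ E]
  [Nontrivial E] [MeasurableSpace E] [BorelSpace E] (μ : Measure E) [μ.IsAddHaarMeasure]

open scoped Classical in
/-- The radius within which approximation by a linear map gives injectivity. -/
noncomputable def radius (L : E →L[ℝ] E) : ℝ≥0 :=
  if h : L.det ≠ 0 then ‖((L.toContinuousLinearEquivOfDetNeZero h).symm : E →L[ℝ] E)‖₊⁻¹ / 2
  else 1

omit [MeasurableSpace E] [BorelSpace E] in
theorem radius_ne_zero (L : E →L[ℝ] E) : radius L ≠ 0 := by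
  unfold radius
  split_ifs with h
  · have := ContinuousLinearEquiv.nnnorm_symm_pos (L.toContinuousLinearEquivOfDetNeZero h)
    positivity
  · exact one_ne_zero

/-- A map with invertible derivative on a set of positive measure has a nonnull image. -/
theorem measure_image_ne_zero {f : E → E} {f' : E → E →L[ℝ] E} {A : Set E} (hA : MeasurableSet A)
    (hμ : μ A ≠ 0) (hf : ∀ x ∈ A, HasFDerivWithinAt f (f' x) A x)
    (hdet : ∀ x ∈ A, (f' x).det ≠ 0) : μ (f '' A) ≠ 0 := by
  intro h0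
  obtain ⟨t, L, -, tm, tcov, tapp, tA⟩ :=
    exists_partition_approximatesLinearOn_of_hasFDerivWithinAt f A f' hf radius radius_ne_zero
  obtain ⟨x₀, hx₀⟩ := nonempty_of_measure_ne_zero hμ
  refine hμ (measure_mono_null (fun x hx => ?_) (measure_iUnion_null (s := fun k => A ∩ t k) ?_))
  · obtain ⟨k, hk⟩ := mem_iUnion.1 (tcov hx)
    exact mem_iUnion.2 ⟨k, hx, hk⟩
  intro k
  obtain ⟨y, hy, hLy⟩ := tA ⟨x₀, hx₀⟩ k
  have hL : (L k).det ≠ 0 := hLy ▸ hdet y hy
  have inj : InjOn f (A ∩ t k) := by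
    refine ApproximatesLinearOn.injOn (f' := (L k).toContinuousLinearEquivOfDetNeZero hL)
      (c := radius (L k)) (by simpa using tapp k) (Or.inr ?_)
    rw [radius, dif_pos hL]
    exact half_lt_self (inv_pos.2 (ContinuousLinearEquiv.nnnorm_symm_pos _))
  have hS : MeasurableSet (A ∩ t k) := hA.inter (tm k)
  have hf' : ∀ x ∈ A ∩ t k, HasFDerivWithinAt f (f' x) (A ∩ t k) x :=
    fun x hx => (hf x hx.1).mono inter_subset_left
  have hint := lintegral_abs_det_fderiv_eq_addHaar_image μ hS hf' inj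
  rw [measure_mono_null (image_mono inter_subset_left) h0,
    lintegral_eq_zero_iff' (aemeasurable_ofReal_abs_det_fderivWithin μ hS hf'),
    Filter.EventuallyEq, ae_restrict_iff' hS, ae_iff] at hint
  refine measure_mono_null (fun x hx => ?_) hint
  simp only [mem_ofPred_eq, Pi.zero_apply, ENNReal.ofReal_eq_zero, abs_nonpos_iff]
  exact fun h => hdet x hx.1 (h hx)

omit [MeasurableSpace E] [BorelSpace E] in
/-- A linear map has at most `dim E` eigenvalues. -/
theorem exists_det_ne_zero (L : E →L[ℝ] E) {s : Fin (finrank ℝ E + 1) → ℝ}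
    (hs : Function.Injective s) : ∃ i, (L + s i • ContinuousLinearMap.id ℝ E).det ≠ 0 := by
  by_contra h
  push Not at h
  have hv : ∀ i, ∃ v, Module.End.HasEigenvector (L : E →ₗ[ℝ] E) (-s i) v := by
    intro i
    obtain ⟨v, hv, hv0⟩ := Submodule.exists_mem_ne_zero_of_ne_bot
      (LinearMap.bot_lt_ker_of_det_eq_zero (h i)).ne'
    refine ⟨v, Module.End.mem_eigenspace_iff.2 ?_, hv0⟩
    rw [LinearMap.mem_ker] at hv
    have hv' : L v + s i • v = 0 := hv
    simp [eq_neg_of_add_eq_zero_left hv']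
  choose v hv using hv
  have hli := Module.End.eigenvectors_linearIndependent' _ (fun i => -s i)
    (neg_injective.comp hs) v hv
  have := hli.fintype_card_le_finrank
  simp at this

/-- For one of `dim E + 1` shifts a Lipschitz map has a nonnull image. -/
theorem exists_shift_image_ne_zero {g : E → E} {C : ℝ≥0} (hg : LipschitzWith C g) {A : Set E}
    (hA : MeasurableSet A) (hμ : μ A ≠ 0) {s : Fin (finrank ℝ E + 1) → ℝ}
    (hs : Function.Injective s) : ∃ i, μ ((fun x => g x + s i • x) '' A) ≠ 0 := by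
  set D := {x | DifferentiableAt ℝ g x} with hD
  set B := fun i => (A ∩ D) ∩ {x | (fderiv ℝ g x + s i • ContinuousLinearMap.id ℝ E).det ≠ 0}
    with hB
  have hBm : ∀ i, MeasurableSet (B i) := fun i =>
    (hA.inter (measurableSet_of_differentiableAt ℝ g)).inter
      ((ContinuousLinearMap.continuous_det.measurable.comp
        ((measurable_fderiv ℝ g).add_const _)) (measurableSet_singleton 0).compl)
  have hBex : ∃ i, μ (B i) ≠ 0 := by
    by_contra h
    push Not at h
    refine hμ (measure_mono_null (fun x hx => ?_)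
      (measure_union_null (measure_iUnion_null h) (ae_iff.1 hg.ae_differentiableAt)))
    by_cases hx' : DifferentiableAt ℝ g x
    · obtain ⟨i, hi⟩ := exists_det_ne_zero (fderiv ℝ g x) hs
      exact Or.inl (mem_iUnion.2 ⟨i, ⟨hx, hx'⟩, hi⟩)
    · exact Or.inr hx'
  obtain ⟨i, hi⟩ := hBex
  refine ⟨i, fun h0 => measure_image_ne_zero μ
    (f' := fun x => fderiv ℝ g x + s i • ContinuousLinearMap.id ℝ E) (hBm i) hi
    (fun x hx => ?_) (fun x hx => hx.2) (measure_mono_null (image_mono ?_) h0)⟩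
  · exact (hx.1.2.hasFDerivAt.add ((hasFDerivAt_id x).const_smul (s i))).hasFDerivWithinAt
  · exact fun x hx => hx.1.1

omit [FiniteDimensional ℝ E] [Nontrivial E] [MeasurableSpace E] [BorelSpace E] in
/-- Radial projection away from the origin is Lipschitz. -/
theorem lipschitzOnWith_normalize {r : ℝ≥0} (hr : 0 < r) :
    LipschitzOnWith (2 / r) (fun x : E => ‖x‖⁻¹ • x) {x | (r : ℝ) ≤ ‖x‖} := by
  refine LipschitzOnWith.of_dist_le_mul fun x hx y hy => ?_
  simp only [dist_eq_norm, NNReal.coe_div, NNReal.coe_ofNat]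
  have hr' : (0 : ℝ) < r := hr
  have hx' : 0 < ‖x‖ := hr'.trans_le hx
  have hy' : 0 < ‖y‖ := hr'.trans_le hy
  have h : ‖x‖⁻¹ • x - ‖y‖⁻¹ • y = ‖x‖⁻¹ • (x - y) + (‖x‖⁻¹ - ‖y‖⁻¹) • y := by
    rw [smul_sub, sub_smul]; abel
  rw [h]
  refine (norm_add_le _ _).trans ?_
  simp only [norm_smul, Real.norm_eq_abs, abs_inv, abs_norm]
  have e : |‖x‖⁻¹ - ‖y‖⁻¹| * ‖y‖ = |‖y‖ - ‖x‖| / ‖x‖ := by
    rw [inv_sub_inv hx'.ne' hy'.ne', abs_div, abs_mul, abs_norm, abs_norm]
    field_simp
  rw [e]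
  calc ‖x‖⁻¹ * ‖x - y‖ + |‖y‖ - ‖x‖| / ‖x‖ ≤ ‖x‖⁻¹ * ‖x - y‖ + ‖x - y‖ / ‖x‖ := by
        gcongr; rw [abs_sub_comm]; exact abs_norm_sub_norm_le x y
    _ = 2 / ‖x‖ * ‖x - y‖ := by ring
    _ ≤ 2 / r * ‖x - y‖ := by gcongr; exact hx

/-- Segments attached in a Lipschitz way to directions of positive measure fill positive
measure. -/
theorem measure_ne_zero_of_lipschitz_choice {K : Set E} {D : Set E} {a : E → E} {C : ℝ≥0}
    (hDm : MeasurableSet D)
    (hD : μ.toSphere (Subtype.val ⁻¹' D) ≠ 0) (ha : LipschitzOnWith C a D)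
    (hseg : ∀ e ∈ D, ∀ t ∈ Icc (0 : ℝ) 1, a e + t • e ∈ K) : μ K ≠ 0 := by
  set A := fun k : ℕ => {x : E | (((k : ℝ≥0) + 1)⁻¹ : ℝ≥0) ≤ ‖x‖ ∧ ‖x‖ < 1 ∧ ‖x‖⁻¹ • x ∈ D}
    with hA
  have hAm : ∀ k, MeasurableSet (A k) := fun k =>
    (measurableSet_le measurable_const measurable_norm).inter
      ((measurableSet_lt measurable_norm measurable_const).inter
        ((measurable_norm.inv.smul measurable_id) hDm))
  have hex : ∃ k, μ (A k) ≠ 0 := by
    by_contra h
    push Not at h
    rw [Measure.toSphere_apply' _ (hDm.preimage measurable_subtype_coe)] at hD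
    refine hD (mul_eq_zero_of_right _ (measure_mono_null ?_ (measure_iUnion_null h)))
    rintro x ⟨t, ht, e, ⟨e', he', rfl⟩, rfl⟩
    obtain ⟨k, hk⟩ := exists_nat_one_div_lt ht.1
    have hnorm : ‖t • (e' : E)‖ = t := by
      rw [norm_smul, Real.norm_eq_abs, abs_of_pos ht.1, norm_eq_of_mem_sphere e', mul_one]
    refine mem_iUnion.2 ⟨k, ?_, ?_, ?_⟩ <;> simp only [hnorm]
    · simpa using hk.le
    · exact ht.2
    · rw [inv_smul_smul₀ ht.1.ne']; exact he'
  obtain ⟨k, hk⟩ := hex
  have hN := (lipschitzOnWith_normalize (E := E)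
    (r := ((k : ℝ≥0) + 1)⁻¹) (by positivity)).mono (s := A k) fun x hx => hx.1
  obtain ⟨g, hg, hgA⟩ := (ha.comp hN fun x hx => hx.2.2).extend_finite_dimension
  have hs : Function.Injective fun i : Fin (finrank ℝ E + 1) =>
      ((i : ℝ) + 1) / (finrank ℝ E + 1) := fun i j h => by
    simp only [div_left_inj' (Nat.cast_add_one_ne_zero (finrank ℝ E) : ((_ : ℝ) + 1) ≠ 0),
      add_left_inj, Nat.cast_inj] at h
    exact Fin.ext h
  obtain ⟨i, hi⟩ := exists_shift_image_ne_zero μ hg (hAm k) hk hs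
  refine fun h0 => hi (measure_mono_null ?_ h0)
  rintro _ ⟨x, hx, rfl⟩
  simp only
  set s := ((i : ℝ) + 1) / (finrank ℝ E + 1)
  have hs0 : 0 ≤ s := by positivity
  have hs1 : s ≤ 1 := div_le_one_of_le₀ (by exact_mod_cast Nat.succ_le_of_lt i.isLt) (by positivity)
  have hx0 : ‖x‖ ≠ 0 := by
    have : (0 : ℝ) < (((k : ℝ≥0) + 1)⁻¹ : ℝ≥0) := by positivity
    exact (this.trans_le hx.1).ne'
  rw [← hgA hx]
  have : s • x = (s * ‖x‖) • (‖x‖⁻¹ • x) := by rw [smul_smul, mul_inv_cancel_right₀ hx0]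
  rw [this]
  exact hseg _ hx.2.2 _ ⟨by positivity, mul_le_one₀ hs1 (norm_nonneg x) hx.2.1.le⟩

end Vale.Agent.P127
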